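import Vale.Agent.P154.D4.Comp

/-! Generated data for the computation. -/

set_option maxRecDepth 100000

namespace Vale.Agent.P154.D4

/-- Lattice of stage A. -/
def latA : Lat where
  p := 4
  q := 5
  L := 20
  reps := [(0, 0, 0), (0, 0, 1), (0, 0, 2), (0, 0, 3), (0, 0, 4), (0, 0, 5), (0, 0, 6), (0, 0, 7), (0, 0, 8), (0, 0, 9), (0, 0, 10), (0, 0, 11), (0, 0, 12), (0, 0, 13), (0, 0, 14), (0, 0, 15), (0, 0, 16), (0, 0, 17), (0, 0, 18), (0, 0, 19), (0, 0, 20), (0, 1, 1), (0, 1, 2), (0, 1, 3), (0, 1, 4), (0, 1, 5), (0, 1, 6), (0, 1, 7), (0, 1, 8), (0, 1, 9), (0, 1, 10), (0, 1, 11), (0, 1, 12), (0, 1, 13), (0, 1, 14), (0, 1, 15), (0, 1, 16), (0, 1, 17), (0, 1, 18), (0, 1, 19), (0, 1, 20), (0, 2, 2), (0, 2, 3), (0, 2, 4), (0, 2, 5), (0, 2, 6), (0, 2, 7), (0, 2, 8), (0, 3, 3), (0, 3, 4), (0, 3, 5),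 (0, 4, 4)]

/-- Lattice of stage B. -/
def latB : Lat where
  p := 8
  q := 9
  L := 24
  reps := [(0, 0, 0), (0, 0, 1), (0, 0, 2), (0, 0, 3), (0, 0, 4), (0, 0, 5), (0, 0, 6), (0, 0, 7), (0, 0, 8), (0, 0, 9), (0, 0, 10), (0, 0, 11), (0, 0, 12), (0, 0, 13), (0, 0, 14), (0, 0, 15), (0, 0, 16), (0, 0, 17), (0, 0, 18), (0, 0, 19), (0, 0, 20), (0, 0, 21), (0, 0, 22), (0, 0, 23), (0, 0, 24), (0, 1, 1), (0, 1, 2), (0, 1, 3), (0, 1, 4), (0, 1, 5), (0, 1, 6), (0, 1, 7), (0, 1, 8), (0, 1, 9), (0, 1, 10), (0, 1, 11), (0, 1, 12), (0, 1, 13), (0, 1, 14), (0, 1, 15), (0, 1, 16), (0, 1, 17), (0, 1, 18), (0, 1, 19), (0, 1, 20), (0, 1, 21), (0, 1, 22), (0, 1, 23), (0, 1, 24), (0, 2, 2), (0, 2, 3), (0, 2, 4), (0, 2, 5), (0, 2, 6), (0, 2, 7), (0, 2, 8), (0, 2, 9), (0, 2, 10), (0, 2, 11), (0, 2, 12), (0, 2, 13),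 (0, 2, 14), (0, 2, 15), (0, 2, 16), (0, 2, 17), (0, 2, 18), (0, 2, 19), (0, 3, 3), (0, 3, 4), (0, 3, 5), (0, 3, 6), (0, 3, 7), (0, 3, 8), (0, 3, 9), (0, 3, 10), (0, 3, 11), (0, 3, 12), (0, 3, 13), (0, 3, 14), (0, 4, 4), (0, 4, 5), (0, 4, 6), (0, 4, 7), (0, 4, 8), (0, 4, 9), (0, 4, 10), (0, 4, 11), (0, 5, 5), (0, 5, 6), (0, 5, 7), (0, 5, 8), (0, 5, 9), (0, 6, 6), (0, 6, 7)]

/-- Lattice of stage C. -/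
def latC : Lat where
  p := 18
  q := 19
  L := 25
  reps := [(0, 0, 0), (0, 0, 1), (0, 0, 2), (0, 0, 3), (0, 0, 4), (0, 0, 5), (0, 0, 6), (0, 0, 7), (0, 0, 8), (0, 0, 9), (0, 0, 10), (0, 0, 11), (0, 0, 12), (0, 0, 13), (0, 0, 14), (0, 0, 15), (0, 0, 16), (0, 0, 17), (0, 0, 18), (0, 0, 19), (0, 0, 20), (0, 0, 21), (0, 0, 22), (0, 0, 23), (0, 0, 24), (0, 0, 25), (0, 1, 1), (0, 1, 2), (0, 1, 3), (0, 1, 4), (0, 1, 5), (0, 1, 6), (0, 1, 7), (0, 1, 8), (0, 1, 9), (0, 1, 10), (0, 1, 11), (0, 1, 12), (0, 1, 13), (0, 1, 14), (0, 1, 15), (0, 1, 16), (0, 1, 17), (0, 1, 18), (0, 1, 19), (0, 1, 20), (0, 1, 21), (0, 1, 22), (0, 1, 23), (0, 1, 24), (0, 1, 25), (0, 2, 2), (0, 2, 3), (0, 2, 4), (0, 2, 5), (0, 2, 6), (0, 2, 7), (0, 2, 8), (0, 2, 9), (0, 2, 10), (0, 2, 11), (0, 2, 12), (0, 2, 13), (0, 2, 14),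 (0, 2, 15), (0, 2, 16), (0, 2, 17), (0, 2, 18), (0, 2, 19), (0, 2, 20), (0, 2, 21), (0, 2, 22), (0, 2, 23), (0, 2, 24), (0, 2, 25), (0, 3, 3), (0, 3, 4), (0, 3, 5), (0, 3, 6), (0, 3, 7), (0, 3, 8), (0, 3, 9), (0, 3, 10), (0, 3, 11), (0, 3, 12), (0, 3, 13), (0, 3, 14), (0, 3, 15), (0, 3, 16), (0, 3, 17), (0, 3, 18), (0, 3, 19), (0, 3, 20), (0, 3, 21), (0, 3, 22), (0, 3, 23), (0, 3, 24), (0, 3, 25), (0, 4, 4), (0, 4, 5), (0, 4, 6), (0, 4, 7), (0, 4, 8), (0, 4, 9), (0, 4, 10), (0, 4, 11), (0, 4, 12), (0, 4, 13), (0, 4, 14), (0, 4, 15), (0, 4, 16), (0, 4, 17), (0, 4, 18), (0, 4, 19), (0, 4, 20), (0, 4, 21), (0, 4, 22), (0, 4, 23), (0, 4, 24), (0, 4, 25), (0, 5, 5), (0, 5, 6), (0, 5, 7), (0, 5, 8), (0, 5, 9), (0, 5, 10), (0, 5, 11), (0, 5, 12), (0, 5, 13), (0, 5, 14), (0, 5, 15), (0, 5, 16), (0, 5,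 17), (0, 5, 18), (0, 5, 19), (0, 5, 20), (0, 5, 21), (0, 5, 22), (0, 5, 23), (0, 5, 24), (0, 5, 25), (0, 6, 6), (0, 6, 7), (0, 6, 8), (0, 6, 9), (0, 6, 10), (0, 6, 11), (0, 6, 12), (0, 6, 13), (0, 6, 14), (0, 6, 15), (0, 6, 16), (0, 6, 17), (0, 6, 18), (0, 6, 19), (0, 6, 20), (0, 6, 21), (0, 6, 22), (0, 6, 23), (0, 6, 24), (0, 6, 25), (0, 7, 7), (0, 7, 8), (0, 7, 9), (0, 7, 10), (0, 7, 11), (0, 7, 12), (0, 7, 13), (0, 7, 14), (0, 7, 15), (0, 7, 16), (0, 7, 17), (0, 7, 18), (0, 7, 19), (0, 7, 20), (0, 7, 21), (0, 7, 22), (0, 7, 23), (0, 7, 24), (0, 8, 8), (0, 8, 9), (0, 8, 10), (0, 8, 11), (0, 8, 12), (0, 8, 13), (0, 8, 14), (0, 8, 15), (0, 8, 16), (0, 8, 17), (0, 8, 18), (0, 8, 19), (0, 8, 20), (0, 8, 21), (0, 8, 22), (0, 9, 9), (0, 9, 10), (0, 9, 11), (0, 9, 12), (0, 9, 13), (0, 9, 14), (0,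 9, 15), (0, 9, 16), (0, 9, 17), (0, 9, 18), (0, 9, 19), (0, 9, 20), (0, 10, 10), (0, 10, 11), (0, 10, 12), (0, 10, 13), (0, 10, 14), (0, 10, 15), (0, 10, 16), (0, 10, 17), (0, 10, 18), (0, 11, 11), (0, 11, 12), (0, 11, 13), (0, 11, 14), (0, 11, 15), (0, 11, 16), (0, 11, 17), (0, 12, 12), (0, 12, 13), (0, 12, 14), (0, 12, 15), (0, 13, 13), (0, 13, 14)]


end Vale.Agent.P154.D4
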