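import Vale.Agent.P154.D4.Eval
import Vale.Agent.P154.D4.Data.Lats
import Vale.Agent.P154.D4.Data.States0
import Vale.Agent.P154.D4.Data.States7

/-! Generated checks for the computation. -/

set_option maxRecDepth 100000

namespace Vale.Agent.P154.D4

theorem latA_good : latA.good = true := by
  decide +kernel

theorem latC_good : latC.good = true := by
  decide +kernel

theorem state0_valid : latA.valid state0 = true := by
  decide +kernel

theorem state170_valid : latC.valid state170 = true := by
  decide +kernel

theorem state170_small : latC.small state170 = true := by
  decide +kernel

end Vale.Agent.P154.D4
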