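import Vale.Agent.P154.D4.Table
import Vale.Agent.P154.D4.Data.StepAA

/-! Generated checks for the computation. -/

set_option maxRecDepth 100000

namespace Vale.Agent.P154.D4

theorem stepAA_ok : stepAA.ok latA = true := by
  decide +kernel

end Vale.Agent.P154.D4
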