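import Vale.Agent.P154.D4.Table
import Vale.Agent.P154.D4.Data.StepBB

/-! Generated checks for the computation. -/

set_option maxRecDepth 100000

namespace Vale.Agent.P154.D4

theorem stepBB_ok : stepBB.ok latB = true := by
  decide +kernel

end Vale.Agent.P154.D4
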