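import Vale.Agent.P154.D4.Data.States0
import Vale.Agent.P154.D4.Data.StepAA

/-! Generated data for the computation. -/

set_option maxRecDepth 100000

namespace Vale.Agent.P154.D4

theorem steps0 :
    stepAA.step state0 = (state1, true) ∧
    stepAA.step state1 = (state2, true) ∧
    stepAA.step state2 = (state3, true) ∧
    stepAA.step state3 = (state4, true) ∧
    stepAA.step state4 = (state5, true) ∧
    stepAA.step state5 = (state6, true) ∧
    stepAA.step state6 = (state7, true) ∧
    stepAA.step state7 = (state8, true) ∧
    stepAA.step state8 = (state9, true) ∧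
    stepAA.step state9 = (state10, true) ∧
    stepAA.step state10 = (state11, true) ∧
    stepAA.step state11 = (state12, true) ∧
    stepAA.step state12 = (state13, true) := by
  refine ⟨?_, ?_, ?_, ?_, ?_, ?_, ?_, ?_, ?_, ?_, ?_, ?_, ?_⟩ <;> decide +kernel

end Vale.Agent.P154.D4
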