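import Vale.Agent.P154.D4.Data.States0
import Vale.Agent.P154.D4.Data.States1
import Vale.Agent.P154.D4.Data.StepAA

/-! Generated data for the computation. -/

set_option maxRecDepth 100000

namespace Vale.Agent.P154.D4

theorem steps13 :
    stepAA.step state13 = (state14, true) ∧
    stepAA.step state14 = (state15, true) ∧
    stepAA.step state15 = (state16, true) ∧
    stepAA.step state16 = (state17, true) ∧
    stepAA.step state17 = (state18, true) ∧
    stepAA.step state18 = (state19, true) ∧
    stepAA.step state19 = (state20, true) ∧
    stepAA.step state20 = (state21, true) ∧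
    stepAA.step state21 = (state22, true) ∧
    stepAA.step state22 = (state23, true) ∧
    stepAA.step state23 = (state24, true) ∧
    stepAA.step state24 = (state25, true) ∧
    stepAA.step state25 = (state26, true) := by
  refine ⟨?_, ?_, ?_, ?_, ?_, ?_, ?_, ?_, ?_, ?_, ?_, ?_, ?_⟩ <;> decide +kernel

end Vale.Agent.P154.D4
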