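import Vale.Agent.P154.D4.Data.States1
import Vale.Agent.P154.D4.Data.StepAA

/-! Generated data for the computation. -/

set_option maxRecDepth 100000

namespace Vale.Agent.P154.D4

theorem steps26 :
    stepAA.step state26 = (state27, true) ∧
    stepAA.step state27 = (state28, true) ∧
    stepAA.step state28 = (state29, true) ∧
    stepAA.step state29 = (state30, true) ∧
    stepAA.step state30 = (state31, true) ∧
    stepAA.step state31 = (state32, true) ∧
    stepAA.step state32 = (state33, true) ∧
    stepAA.step state33 = (state34, true) ∧
    stepAA.step state34 = (state35, true) ∧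
    stepAA.step state35 = (state36, true) ∧
    stepAA.step state36 = (state37, true) ∧
    stepAA.step state37 = (state38, true) ∧
    stepAA.step state38 = (state39, true) := by
  refine ⟨?_, ?_, ?_, ?_, ?_, ?_, ?_, ?_, ?_, ?_, ?_, ?_, ?_⟩ <;> decide +kernel

end Vale.Agent.P154.D4
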