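import Vale.Agent.P154.D4.Data.States1
import Vale.Agent.P154.D4.Data.States2
import Vale.Agent.P154.D4.Data.StepAA

/-! Generated data for the computation. -/

set_option maxRecDepth 100000

namespace Vale.Agent.P154.D4

theorem steps39 :
    stepAA.step state39 = (state40, true) ∧
    stepAA.step state40 = (state41, true) ∧
    stepAA.step state41 = (state42, true) ∧
    stepAA.step state42 = (state43, true) ∧
    stepAA.step state43 = (state44, true) ∧
    stepAA.step state44 = (state45, true) ∧
    stepAA.step state45 = (state46, true) ∧
    stepAA.step state46 = (state47, true) ∧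
    stepAA.step state47 = (state48, true) ∧
    stepAA.step state48 = (state49, true) ∧
    stepAA.step state49 = (state50, true) ∧
    stepAA.step state50 = (state51, true) ∧
    stepAA.step state51 = (state52, true) := by
  refine ⟨?_, ?_, ?_, ?_, ?_, ?_, ?_, ?_, ?_, ?_, ?_, ?_, ?_⟩ <;> decide +kernel

end Vale.Agent.P154.D4
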