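import Vale.Agent.P154.D4.Data.States2
import Vale.Agent.P154.D4.Data.StepAA

/-! Generated data for the computation. -/

set_option maxRecDepth 100000

namespace Vale.Agent.P154.D4

theorem steps52 :
    stepAA.step state52 = (state53, true) ∧
    stepAA.step state53 = (state54, true) ∧
    stepAA.step state54 = (state55, true) ∧
    stepAA.step state55 = (state56, true) ∧
    stepAA.step state56 = (state57, true) ∧
    stepAA.step state57 = (state58, true) ∧
    stepAA.step state58 = (state59, true) ∧
    stepAA.step state59 = (state60, true) ∧
    stepAA.step state60 = (state61, true) ∧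
    stepAA.step state61 = (state62, true) ∧
    stepAA.step state62 = (state63, true) ∧
    stepAA.step state63 = (state64, true) ∧
    stepAA.step state64 = (state65, true) := by
  refine ⟨?_, ?_, ?_, ?_, ?_, ?_, ?_, ?_, ?_, ?_, ?_, ?_, ?_⟩ <;> decide +kernel

end Vale.Agent.P154.D4
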