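import Vale.Agent.P154.D4.Data.States2
import Vale.Agent.P154.D4.Data.States3
import Vale.Agent.P154.D4.Data.StepAA

/-! Generated data for the computation. -/

set_option maxRecDepth 100000

namespace Vale.Agent.P154.D4

theorem steps65 :
    stepAA.step state65 = (state66, true) ∧
    stepAA.step state66 = (state67, true) ∧
    stepAA.step state67 = (state68, true) ∧
    stepAA.step state68 = (state69, true) ∧
    stepAA.step state69 = (state70, true) ∧
    stepAA.step state70 = (state71, true) ∧
    stepAA.step state71 = (state72, true) ∧
    stepAA.step state72 = (state73, true) ∧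
    stepAA.step state73 = (state74, true) ∧
    stepAA.step state74 = (state75, true) ∧
    stepAA.step state75 = (state76, true) := by
  refine ⟨?_, ?_, ?_, ?_, ?_, ?_, ?_, ?_, ?_, ?_, ?_⟩ <;> decide +kernel

end Vale.Agent.P154.D4
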