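import Vale.Agent.P154.D4.Data.States3
import Vale.Agent.P154.D4.Data.StepBB

/-! Generated data for the computation. -/

set_option maxRecDepth 100000

namespace Vale.Agent.P154.D4

theorem steps77 :
    stepBB.step state77 = (state78, true) ∧
    stepBB.step state78 = (state79, true) ∧
    stepBB.step state79 = (state80, true) ∧
    stepBB.step state80 = (state81, true) ∧
    stepBB.step state81 = (state82, true) ∧
    stepBB.step state82 = (state83, true) ∧
    stepBB.step state83 = (state84, true) ∧
    stepBB.step state84 = (state85, true) ∧
    stepBB.step state85 = (state86, true) ∧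
    stepBB.step state86 = (state87, true) := by
  refine ⟨?_, ?_, ?_, ?_, ?_, ?_, ?_, ?_, ?_, ?_⟩ <;> decide +kernel

end Vale.Agent.P154.D4
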