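import Vale.Agent.P154.D4.Data.States3
import Vale.Agent.P154.D4.Data.States4
import Vale.Agent.P154.D4.Data.StepBB

/-! Generated data for the computation. -/

set_option maxRecDepth 100000

namespace Vale.Agent.P154.D4

theorem steps87 :
    stepBB.step state87 = (state88, true) ∧
    stepBB.step state88 = (state89, true) ∧
    stepBB.step state89 = (state90, true) ∧
    stepBB.step state90 = (state91, true) ∧
    stepBB.step state91 = (state92, true) ∧
    stepBB.step state92 = (state93, true) ∧
    stepBB.step state93 = (state94, true) ∧
    stepBB.step state94 = (state95, true) ∧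
    stepBB.step state95 = (state96, true) ∧
    stepBB.step state96 = (state97, true) := by
  refine ⟨?_, ?_, ?_, ?_, ?_, ?_, ?_, ?_, ?_, ?_⟩ <;> decide +kernel

end Vale.Agent.P154.D4
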