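import Vale.Agent.P154.D4.Data.States4
import Vale.Agent.P154.D4.Data.StepBB

/-! Generated data for the computation. -/

set_option maxRecDepth 100000

namespace Vale.Agent.P154.D4

theorem steps97 :
    stepBB.step state97 = (state98, true) ∧
    stepBB.step state98 = (state99, true) ∧
    stepBB.step state99 = (state100, true) ∧
    stepBB.step state100 = (state101, true) ∧
    stepBB.step state101 = (state102, true) ∧
    stepBB.step state102 = (state103, true) ∧
    stepBB.step state103 = (state104, true) := by
  refine ⟨?_, ?_, ?_, ?_, ?_, ?_, ?_⟩ <;> decide +kernel

end Vale.Agent.P154.D4
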