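import Vale.Agent.P154.D4.Data.States4
import Vale.Agent.P154.D4.Data.StepBC

/-! Generated data for the computation. -/

set_option maxRecDepth 100000

namespace Vale.Agent.P154.D4

theorem steps104 :
    stepBC.step state104 = (state105, true) := by
  decide +kernel

end Vale.Agent.P154.D4
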