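import Vale.Agent.P154.D4.Data.States4
import Vale.Agent.P154.D4.Data.States5
import Vale.Agent.P154.D4.Data.StepCC

/-! Generated data for the computation. -/

set_option maxRecDepth 100000

namespace Vale.Agent.P154.D4

theorem steps105 :
    stepCC.step state105 = (state106, true) ∧
    stepCC.step state106 = (state107, true) ∧
    stepCC.step state107 = (state108, true) ∧
    stepCC.step state108 = (state109, true) ∧
    stepCC.step state109 = (state110, true) ∧
    stepCC.step state110 = (state111, true) ∧
    stepCC.step state111 = (state112, true) ∧
    stepCC.step state112 = (state113, true) := by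
  refine ⟨?_, ?_, ?_, ?_, ?_, ?_, ?_, ?_⟩ <;> decide +kernel

end Vale.Agent.P154.D4
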