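import Vale.Agent.P154.D4.Data.States5
import Vale.Agent.P154.D4.Data.StepCC

/-! Generated data for the computation. -/

set_option maxRecDepth 100000

namespace Vale.Agent.P154.D4

theorem steps113 :
    stepCC.step state113 = (state114, true) ∧
    stepCC.step state114 = (state115, true) ∧
    stepCC.step state115 = (state116, true) ∧
    stepCC.step state116 = (state117, true) ∧
    stepCC.step state117 = (state118, true) ∧
    stepCC.step state118 = (state119, true) ∧
    stepCC.step state119 = (state120, true) ∧
    stepCC.step state120 = (state121, true) := by
  refine ⟨?_, ?_, ?_, ?_, ?_, ?_, ?_, ?_⟩ <;> decide +kernel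

end Vale.Agent.P154.D4
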