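import Vale.Agent.P154.D4.Data.States5
import Vale.Agent.P154.D4.Data.StepCC

/-! Generated data for the computation. -/

set_option maxRecDepth 100000

namespace Vale.Agent.P154.D4

theorem steps121 :
    stepCC.step state121 = (state122, true) ∧
    stepCC.step state122 = (state123, true) ∧
    stepCC.step state123 = (state124, true) ∧
    stepCC.step state124 = (state125, true) ∧
    stepCC.step state125 = (state126, true) ∧
    stepCC.step state126 = (state127, true) ∧
    stepCC.step state127 = (state128, true) ∧
    stepCC.step state128 = (state129, true) := by
  refine ⟨?_, ?_, ?_, ?_, ?_, ?_, ?_, ?_⟩ <;> decide +kernel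

end Vale.Agent.P154.D4
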