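import Vale.Agent.P154.D4.Data.States5
import Vale.Agent.P154.D4.Data.States6
import Vale.Agent.P154.D4.Data.StepCC

/-! Generated data for the computation. -/

set_option maxRecDepth 100000

namespace Vale.Agent.P154.D4

theorem steps129 :
    stepCC.step state129 = (state130, true) ∧
    stepCC.step state130 = (state131, true) ∧
    stepCC.step state131 = (state132, true) ∧
    stepCC.step state132 = (state133, true) ∧
    stepCC.step state133 = (state134, true) ∧
    stepCC.step state134 = (state135, true) ∧
    stepCC.step state135 = (state136, true) ∧
    stepCC.step state136 = (state137, true) := by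
  refine ⟨?_, ?_, ?_, ?_, ?_, ?_, ?_, ?_⟩ <;> decide +kernel

end Vale.Agent.P154.D4
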