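import Vale.Agent.P154.D4.Data.States6
import Vale.Agent.P154.D4.Data.StepCC

/-! Generated data for the computation. -/

set_option maxRecDepth 100000

namespace Vale.Agent.P154.D4

theorem steps137 :
    stepCC.step state137 = (state138, true) ∧
    stepCC.step state138 = (state139, true) ∧
    stepCC.step state139 = (state140, true) ∧
    stepCC.step state140 = (state141, true) ∧
    stepCC.step state141 = (state142, true) ∧
    stepCC.step state142 = (state143, true) ∧
    stepCC.step state143 = (state144, true) ∧
    stepCC.step state144 = (state145, true) := by
  refine ⟨?_, ?_, ?_, ?_, ?_, ?_, ?_, ?_⟩ <;> decide +kernel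

end Vale.Agent.P154.D4
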