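import Vale.Agent.P154.D4.Data.States6
import Vale.Agent.P154.D4.Data.StepCC

/-! Generated data for the computation. -/

set_option maxRecDepth 100000

namespace Vale.Agent.P154.D4

theorem steps145 :
    stepCC.step state145 = (state146, true) ∧
    stepCC.step state146 = (state147, true) ∧
    stepCC.step state147 = (state148, true) ∧
    stepCC.step state148 = (state149, true) ∧
    stepCC.step state149 = (state150, true) ∧
    stepCC.step state150 = (state151, true) ∧
    stepCC.step state151 = (state152, true) ∧
    stepCC.step state152 = (state153, true) := by
  refine ⟨?_, ?_, ?_, ?_, ?_, ?_, ?_, ?_⟩ <;> decide +kernel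

end Vale.Agent.P154.D4
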