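import Vale.Agent.P154.D4.Data.States6
import Vale.Agent.P154.D4.Data.States7
import Vale.Agent.P154.D4.Data.StepCC

/-! Generated data for the computation. -/

set_option maxRecDepth 100000

namespace Vale.Agent.P154.D4

theorem steps153 :
    stepCC.step state153 = (state154, true) ∧
    stepCC.step state154 = (state155, true) ∧
    stepCC.step state155 = (state156, true) ∧
    stepCC.step state156 = (state157, true) ∧
    stepCC.step state157 = (state158, true) ∧
    stepCC.step state158 = (state159, true) ∧
    stepCC.step state159 = (state160, true) ∧
    stepCC.step state160 = (state161, true) := by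
  refine ⟨?_, ?_, ?_, ?_, ?_, ?_, ?_, ?_⟩ <;> decide +kernel

end Vale.Agent.P154.D4
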