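import Vale.Agent.P154.D4.Data.States7
import Vale.Agent.P154.D4.Data.StepCC

/-! Generated data for the computation. -/

set_option maxRecDepth 100000

namespace Vale.Agent.P154.D4

theorem steps161 :
    stepCC.step state161 = (state162, true) ∧
    stepCC.step state162 = (state163, true) ∧
    stepCC.step state163 = (state164, true) ∧
    stepCC.step state164 = (state165, true) ∧
    stepCC.step state165 = (state166, true) ∧
    stepCC.step state166 = (state167, true) ∧
    stepCC.step state167 = (state168, true) ∧
    stepCC.step state168 = (state169, true) := by
  refine ⟨?_, ?_, ?_, ?_, ?_, ?_, ?_, ?_⟩ <;> decide +kernel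

end Vale.Agent.P154.D4
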