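import Vale.Agent.P154.D4.Data.States7
import Vale.Agent.P154.D4.Data.StepCC

/-! Generated data for the computation. -/

set_option maxRecDepth 100000

namespace Vale.Agent.P154.D4

theorem steps169 :
    stepCC.step state169 = (state170, true) := by
  decide +kernel

end Vale.Agent.P154.D4
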