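import Vale.Agent.P154.D4.Data.States0
import Vale.Agent.P154.D4.Data.States1
import Vale.Agent.P154.D4.Data.States2
import Vale.Agent.P154.D4.Data.States3
import Vale.Agent.P154.D4.Data.States4
import Vale.Agent.P154.D4.Data.States5
import Vale.Agent.P154.D4.Data.States6
import Vale.Agent.P154.D4.Data.States7

/-! Generated data for the computation. -/
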